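import Vale.Agent.P196.H366.Conv

/-! P196, cutting, FACT (F1): conservation of the crossing numbers. -/

namespace Vale.Agent.P196.H366

open Equiv Vale.Agent.P196.Cut

/-! ### One-dimensional lemmas -/

section oned

variable {M δ x x' : ℤ}

theorem dI_cases (hM : 0 < M) (x : ℤ) : ∃ k c : ℤ, x = 2 * M * k + c ∧ 0 ≤ c ∧ c < 2 * M :=
  ⟨x / (2 * M), x % (2 * M), (Int.mul_ediv_add_emod x (2 * M)).symm,
    Int.emod_nonneg _ (by omega), Int.emod_lt_of_pos _ (by omega)⟩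

theorem dI_face {k c : ℤ} (h0 : 0 ≤ c) (h1 : c < 2 * M) :
    dI M (2 * M * k + c) = if c < M then c else 2 * M - 1 - c := by
  rw [add_comm, dI_add]
  unfold dI
  rw [Int.emod_eq_of_lt h0 h1]

theorem hf_face {k c : ℤ} (h0 : 0 ≤ c) (h1 : c < 2 * M) :
    hf M (2 * M * k + c) = decide (M ≤ c) := by
  rw [add_comm, hf_add]
  unfold hf
  rw [Int.emod_eq_of_lt h0 h1]

theorem fI_face {k c : ℤ} (h0 : 0 ≤ c) (h1 : c < 2 * M) :
    fI M (2 * M * k + c) = k := by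
  rw [add_comm, fI_add (by omega)]
  unfold fI
  rw [Int.ediv_eq_zero_of_lt h0 h1, zero_add]

/-- Description of a nearby point. -/
theorem near_cases (hM : 0 < M) (hδ : δ < M) (h : |x' - x| ≤ δ) :
    ∃ k c c' : ℤ, x = 2 * M * k + c ∧ 0 ≤ c ∧ c < 2 * M ∧ |c' - c| ≤ δ ∧
      ((x' = 2 * M * k + c' ∧ 0 ≤ c' ∧ c' < 2 * M) ∨
       (x' = 2 * M * (k - 1) + (c' + 2 * M) ∧ c' < 0 ∧ 0 ≤ c' + 2 * M) ∨
       (x' = 2 * M * (k + 1) + (c' - 2 * M) ∧ 2 * M ≤ c' ∧ c' - 2 * M < 2 * M)) := by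
  obtain ⟨k, c, rfl, h0, h1⟩ := dI_cases hM x
  refine ⟨k, c, x' - 2 * M * k, rfl, h0, h1, ?_, ?_⟩
  · have : x' - 2 * M * k - c = x' - (2 * M * k + c) := by ring
    rw [this]; exact h
  · have e1 : 2 * M * (k - 1) = 2 * M * k - 2 * M := by ring
    have e2 : 2 * M * (k + 1) = 2 * M * k + 2 * M := by ring
    rw [e1, e2]
    rw [abs_le] at h
    generalize 2 * M * k = K at *
    omega

theorem dI_nonneg (hM : 0 < M) (x : ℤ) : 0 ≤ dI M x := by
  obtain ⟨k, c, rfl, h0, h1⟩ := dI_cases hM x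
  rw [dI_face h0 h1]
  split_ifs <;> omega

theorem dI_lt (hM : 0 < M) (x : ℤ) : dI M x < M := by
  obtain ⟨k, c, rfl, h0, h1⟩ := dI_cases hM x
  rw [dI_face h0 h1]
  split_ifs <;> omega

theorem dI_lip (hM : 0 < M) (hδ : δ < M) (h : |x' - x| ≤ δ) :
    dI M x' ≤ dI M x + δ ∧ dI M x ≤ dI M x' + δ := by
  obtain ⟨k, c, c', rfl, h0, h1, h2, h3⟩ := near_cases hM hδ h
  rw [abs_le] at h2
  rw [dI_face h0 h1]
  rcases h3 with ⟨rfl, h4, h5⟩ | ⟨rfl, h4, h5⟩ | ⟨rfl, h4, h5⟩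
  · rw [dI_face h4 h5]; split_ifs <;> omega
  · rw [dI_face h5 (by omega)]; split_ifs <;> omega
  · rw [dI_face (by omega) h5]; split_ifs <;> omega

theorem hf_change (hM : 0 < M) (hδ : δ < M) (h : |x' - x| ≤ δ) (hne : hf M x' ≠ hf M x) :
    (dI M x < δ ∧ dI M x' < δ) ∨ (M - δ ≤ dI M x ∧ M - δ ≤ dI M x') := by
  obtain ⟨k, c, c', rfl, h0, h1, h2, h3⟩ := near_cases hM hδ h
  rw [abs_le] at h2
  rw [dI_face h0 h1]
  rw [hf_face h0 h1] at hne
  rcases h3 with ⟨rfl, h4, h5⟩ | ⟨rfl, h4, h5⟩ | ⟨rfl, h4, h5⟩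
  · rw [dI_face h4 h5]
    rw [hf_face h4 h5] at hne
    have : ¬ (M ≤ c' ↔ M ≤ c) := fun hh => hne (by simp only [hh])
    split_ifs <;> omega
  · rw [dI_face h5 (by omega)]
    rw [hf_face h5 (by omega)] at hne
    have : ¬ (M ≤ c' + 2 * M ↔ M ≤ c) := fun hh => hne (by simp only [hh])
    split_ifs <;> omega
  · rw [dI_face (by omega) h5]
    rw [hf_face (by omega) h5] at hne
    have : ¬ (M ≤ c' - 2 * M ↔ M ≤ c) := fun hh => hne (by simp only [hh])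
    split_ifs <;> omega

theorem vI_same (hM : 0 < M) (hδ : δ < M) (h : |x' - x| ≤ δ) (hd : dI M x < M - δ) :
    vI M x' = vI M x := by
  rw [vI_eq hM, vI_eq hM]
  obtain ⟨k, c, c', rfl, h0, h1, h2, h3⟩ := near_cases hM hδ h
  rw [abs_le] at h2
  rw [dI_face h0 h1] at hd
  rw [hf_face h0 h1, fI_face h0 h1]
  rcases h3 with ⟨rfl, h4, h5⟩ | ⟨rfl, h4, h5⟩ | ⟨rfl, h4, h5⟩
  · rw [hf_face h4 h5, fI_face h4 h5]
    simp only [decide_eq_true_eq]
    split_ifs at * <;> omega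
  · rw [hf_face h5 (by omega), fI_face h5 (by omega)]
    simp only [decide_eq_true_eq]
    split_ifs at * <;> omega
  · rw [hf_face (by omega) h5, fI_face (by omega) h5]
    simp only [decide_eq_true_eq]
    split_ifs at * <;> omega

/-- Inside a face the half can only change near the middle. -/
theorem hf_change_face (hM : 0 < M) (hδ : δ < M) (h : |x' - x| ≤ δ) (hF : fI M x' = fI M x)
    (hne : hf M x' ≠ hf M x) : M - δ ≤ dI M x ∧ M - δ ≤ dI M x' := by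
  obtain ⟨k, c, c', rfl, h0, h1, h2, h3⟩ := near_cases hM hδ h
  rw [abs_le] at h2
  rw [dI_face h0 h1]
  rw [hf_face h0 h1] at hne
  rw [fI_face h0 h1] at hF
  rcases h3 with ⟨rfl, h4, h5⟩ | ⟨rfl, h4, h5⟩ | ⟨rfl, h4, h5⟩
  · rw [dI_face h4 h5]
    rw [hf_face h4 h5] at hne
    have : ¬ (M ≤ c' ↔ M ≤ c) := fun hh => hne (by simp only [hh])
    split_ifs <;> omega
  · rw [fI_face h5 (by omega)] at hF
    omega
  · rw [fI_face (by omega) h5] at hF
    omega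

end oned

/-! ### Configurations -/

variable {ι : Type*}

/-- distance to the nearest vertex -/
def mx (M : ℤ) (u : Z2) : ℤ := max (dI M u.1) (dI M u.2)

/-- distance to the nearest line -/
def mn (M : ℤ) (u : Z2) : ℤ := min (dI M u.1) (dI M u.2)

/-- The supports and displacements of a cut word. -/
structure Cfg (M δ s1 ρ0 ρ1 : ℤ) (v e f : Perm (Z2 × ι)) : Prop where
  vef : v * e * f = 1
  nv : ∀ z, near δ (v z).1 z.1
  nf : ∀ z, near δ (f z).1 z.1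
  v1 : ∀ z, ρ1 < mx M z.1 → v z = z
  e0 : ∀ z, mx M z.1 < ρ0 → e z = z
  e1 : ∀ z, s1 ≤ mn M z.1 → e z = z
  f0 : ∀ z, mx M z.1 < ρ0 → f z = z
  fF : ∀ z, aF M (f z).1 = aF M z.1
  d0 : 0 ≤ δ
  ds : 0 ≤ s1
  d1 : s1 + 6 * δ < ρ0
  d2 : ρ1 + s1 + 4 * δ + 4 < M
  d3 : ρ0 < M

theorem sH_iff {M : ℤ} {u : Z2} : sH M u = true ↔ dI M u.2 ≤ dI M u.1 := by
  simp [sH]

theorem sH_iff' {M : ℤ} {u : Z2} : sH M u = false ↔ dI M u.1 < dI M u.2 := by
  simp [sH]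

theorem sV_eq {M : ℤ} {u : Z2} : sV M u = if dI M u.2 ≤ dI M u.1 then 0 else 1 := by
  simp [sV, sH]

namespace Cfg

variable {M δ s1 ρ0 ρ1 : ℤ} {v e f : Perm (Z2 × ι)}

theorem pos (h : Cfg M δ s1 ρ0 ρ1 v e f) : 0 < M ∧ δ < M := by
  have := h.d0; have := h.ds; have := h.d1; have := h.d2; have := h.d3
  omega

theorem vef_apply (h : Cfg M δ s1 ρ0 ρ1 v e f) (z : Z2 × ι) : v (e (f z)) = z := by
  have := congrArg (fun g : Perm (Z2 × ι) => g z) h.vef
  simpa [Perm.mul_apply] using this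

theorem v0 (h : Cfg M δ s1 ρ0 ρ1 v e f) {z : Z2 × ι} (hz : mx M z.1 < ρ0) : v z = z := by
  have := h.vef_apply z
  rwa [h.f0 z hz, h.e0 z hz] at this

/-- Lipschitz bounds along a small displacement. -/
theorem lip (h : Cfg M δ s1 ρ0 ρ1 v e f) {u u' : Z2} (hn : near δ u' u) :
    (dI M u'.1 ≤ dI M u.1 + δ ∧ dI M u.1 ≤ dI M u'.1 + δ) ∧
    (dI M u'.2 ≤ dI M u.2 + δ ∧ dI M u.2 ≤ dI M u'.2 + δ) :=
  ⟨dI_lip h.pos.1 h.pos.2 hn.1, dI_lip h.pos.1 h.pos.2 hn.2⟩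

theorem vf (h : Cfg M δ s1 ρ0 ρ1 v e f) {z : Z2 × ι} (hz : s1 + δ ≤ mn M z.1) :
    v (f z) = z := by
  have h1 := h.vef_apply z
  have h2 := h.lip (h.nf z)
  rwa [h.e1 (f z) (by unfold mn at *; omega)] at h1

theorem f_in (h : Cfg M δ s1 ρ0 ρ1 v e f) {z : Z2 × ι} (hz : s1 + δ ≤ mn M z.1)
    (hz' : ρ1 + δ < mx M z.1) : f z = z := by
  have h1 := h.vf hz
  have h2 := h.lip (h.nf z)
  rwa [h.v1 (f z) (by unfold mx at *; omega)] at h1

theorem aV_v (h : Cfg M δ s1 ρ0 ρ1 v e f) (z : Z2 × ι) : aV M (v z).1 = aV M z.1 := by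
  by_cases hz : ρ1 < mx M z.1
  · rw [h.v1 z hz]
  · have hn := h.nv z
    have := h.d2; have := h.ds; have := h.d0
    refine Prod.ext ?_ ?_
    · exact vI_same h.pos.1 h.pos.2 hn.1 (by unfold mx at hz; omega)
    · exact vI_same h.pos.1 h.pos.2 hn.2 (by unfold mx at hz; omega)

theorem v_H (h : Cfg M δ s1 ρ0 ρ1 v e f) {z : Z2 × ι} (hs : sH M (v z).1 = true) :
    hf M (v z).1.1 = hf M z.1.1 := by
  by_contra hne
  rw [sH_iff] at hs
  have hl := h.lip (h.nv z)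
  have := h.d0; have := h.ds; have := h.d1; have := h.d2; have := h.d3
  rcases hf_change h.pos.1 h.pos.2 (h.nv z).1 hne with h1 | h1
  · rw [h.v0 (z := z) (by unfold mx; omega)] at hne
    exact hne rfl
  · rw [h.v1 z (by unfold mx; omega)] at hne
    exact hne rfl

theorem v_V (h : Cfg M δ s1 ρ0 ρ1 v e f) {z : Z2 × ι} (hs : sH M (v z).1 = false) :
    hf M (v z).1.2 = hf M z.1.2 := by
  by_contra hne
  rw [sH_iff'] at hs
  have hl := h.lip (h.nv z)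
  have := h.d0; have := h.ds; have := h.d1; have := h.d2; have := h.d3
  rcases hf_change h.pos.1 h.pos.2 (h.nv z).2 hne with h1 | h1
  · rw [h.v0 (z := z) (by unfold mx; omega)] at hne
    exact hne rfl
  · rw [h.v1 z (by unfold mx; omega)] at hne
    exact hne rfl

theorem fF1 (h : Cfg M δ s1 ρ0 ρ1 v e f) (z : Z2 × ι) : fI M (f z).1.1 = fI M z.1.1 :=
  congrArg Prod.fst (h.fF z)

theorem fF2 (h : Cfg M δ s1 ρ0 ρ1 v e f) (z : Z2 × ι) : fI M (f z).1.2 = fI M z.1.2 :=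
  congrArg Prod.snd (h.fF z)

theorem f_H (h : Cfg M δ s1 ρ0 ρ1 v e f) {z : Z2 × ι} (hs : sH M (f z).1 = true) :
    hf M (f z).1.2 = hf M z.1.2 := by
  by_contra hne
  rw [sH_iff] at hs
  have hl := h.lip (h.nf z)
  have := h.d0; have := h.ds; have := h.d1; have := h.d2; have := h.d3
  have h1 := hf_change_face h.pos.1 h.pos.2 (h.nf z).2 (h.fF2 z) hne
  rw [h.f_in (z := z) (by unfold mn; omega) (by unfold mx; omega)] at hne
  exact hne rfl

theorem f_V (h : Cfg M δ s1 ρ0 ρ1 v e f) {z : Z2 × ι} (hs : sH M (f z).1 = false) :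
    hf M (f z).1.1 = hf M z.1.1 := by
  by_contra hne
  rw [sH_iff'] at hs
  have hl := h.lip (h.nf z)
  have := h.d0; have := h.ds; have := h.d1; have := h.d2; have := h.d3
  have h1 := hf_change_face h.pos.1 h.pos.2 (h.nf z).1 (h.fF1 z) hne
  rw [h.f_in (z := z) (by unfold mn; omega) (by unfold mx; omega)] at hne
  exact hne rfl

/-- A point which changes side under `f` stays in its quadrant. -/
theorem f_quad (h : Cfg M δ s1 ρ0 ρ1 v e f) {z : Z2 × ι}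
    (hs : sV M (f z).1 ≠ sV M z.1) :
    aV M (f z).1 = aV M z.1 ∧ hf M (f z).1.1 = hf M z.1.1 ∧ hf M (f z).1.2 = hf M z.1.2 := by
  have hl := h.lip (h.nf z)
  have := h.d0; have := h.ds; have := h.d1; have := h.d2; have := h.d3
  have hd : (dI M z.1.1 ≤ dI M z.1.2 + 2 * δ) ∧ (dI M z.1.2 ≤ dI M z.1.1 + 2 * δ) := by
    rw [sV_eq, sV_eq] at hs
    split_ifs at hs <;> omega
  have hfz : f z ≠ z := fun hh => hs (by rw [hh])
  have h1 : hf M (f z).1.1 = hf M z.1.1 := by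
    by_contra hne
    have h1 := hf_change_face h.pos.1 h.pos.2 (h.nf z).1 (h.fF1 z) hne
    exact hfz (h.f_in (z := z) (by unfold mn; omega) (by unfold mx; omega))
  have h2 : hf M (f z).1.2 = hf M z.1.2 := by
    by_contra hne
    have h1 := hf_change_face h.pos.1 h.pos.2 (h.nf z).2 (h.fF2 z) hne
    exact hfz (h.f_in (z := z) (by unfold mn; omega) (by unfold mx; omega))
  refine ⟨?_, h1, h2⟩
  refine Prod.ext ?_ ?_
  · change vI M (f z).1.1 = vI M z.1.1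
    rw [vI_eq h.pos.1, vI_eq h.pos.1, h1, h.fF1]
  · change vI M (f z).1.2 = vI M z.1.2
    rw [vI_eq h.pos.1, vI_eq h.pos.1, h2, h.fF2]

/-- A point which changes side under `v` stays in its quadrant. -/
theorem v_quad (h : Cfg M δ s1 ρ0 ρ1 v e f) {z : Z2 × ι}
    (hs : sV M (v z).1 ≠ sV M z.1) :
    hf M (v z).1.1 = hf M z.1.1 ∧ hf M (v z).1.2 = hf M z.1.2 := by
  have hl := h.lip (h.nv z)
  have := h.d0; have := h.ds; have := h.d1; have := h.d2; have := h.d3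
  have hd : (dI M z.1.1 ≤ dI M z.1.2 + 2 * δ) ∧ (dI M z.1.2 ≤ dI M z.1.1 + 2 * δ) := by
    rw [sV_eq, sV_eq] at hs
    split_ifs at hs <;> omega
  have hvz : v z ≠ z := fun hh => hs (by rw [hh])
  constructor
  · by_contra hne
    rcases hf_change h.pos.1 h.pos.2 (h.nv z).1 hne with h1 | h1
    · exact hvz (h.v0 (z := z) (by unfold mx; omega))
    · exact hvz (h.v1 z (by unfold mx; omega))
  · by_contra hne
    rcases hf_change h.pos.1 h.pos.2 (h.nv z).2 hne with h1 | h1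
    · exact hvz (h.v0 (z := z) (by unfold mx; omega))
    · exact hvz (h.v1 z (by unfold mx; omega))

end Cfg

end Vale.Agent.P196.H366
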