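import Vale.Agent.P196.H366.Cons

/-! P196, cutting, FACT (F1): conservation of the crossing numbers, conclusion. -/

namespace Vale.Agent.P196.H366

open Equiv Vale.Agent.P196.Cut

variable {ι : Type*}

/-- Net number of points of the quadrant `(p, hx, hy)` moved from side H to side V. -/
noncomputable def cr (M : ℤ) (g : Perm (Z2 × ι)) (p : Z2) (hx hy : Bool) : ℤ :=
  ∑ᶠ z : Z2 × ι, if aV M z.1 = p ∧ hf M z.1.1 = hx ∧ hf M z.1.2 = hy
    then sV M (g z).1 - sV M z.1 else 0

theorem vcell_finite [Finite ι] {M : ℤ} (hM : 0 < M) (p : Z2) :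
    {z : Z2 × ι | aV M z.1 = p}.Finite := by
  have hinj : Function.Injective (fun z : Z2 × ι => (z.1 + (2 * M) • (-p), z.2)) := by
    intro z z' h
    simp only [Prod.mk.injEq, add_left_inj] at h
    exact Prod.ext h.1 h.2
  refine Set.Finite.subset ((pts_finite (ι := ι) (2 * M)).preimage hinj.injOn) ?_
  intro z hz
  have hz' : aV M z.1 = p := hz
  have h1 : aV M (z.1 + (2 * M) • (-p)) = 0 := by
    rw [aV_add hM, hz']; simp
  have h2 := box_aV hM _ h1
  simp only [Finset.mem_product, Finset.mem_Icc] at h2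
  change (z.1 + (2 * M) • (-p)) ∈ disc (2 * M)
  rw [mem_disc, abs_le, abs_le]
  exact h2

theorem vI_fI {M : ℤ} (hM : 0 < M) {x : ℤ} {h : Bool} (hh : hf M x = h) (k : ℤ) :
    vI M x = k + (if h then 1 else 0) ↔ fI M x = k := by
  rw [vI_eq hM, hh]
  omega

section support

variable {M : ℤ} [Finite ι]

theorem supp_of_cell (hM : 0 < M) (p : Z2) {F : Z2 × ι → ℤ}
    (hF : ∀ z, aV M z.1 ≠ p → F z = 0) : (Function.support F).Finite := by
  refine (vcell_finite hM p).subset ?_
  intro z hz
  by_contra hh
  exact hz (hF z hh)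

theorem cr_support (hM : 0 < M) (g : Perm (Z2 × ι)) (p : Z2) (hx hy : Bool) :
    (Function.support fun z : Z2 × ι => if aV M z.1 = p ∧ hf M z.1.1 = hx ∧ hf M z.1.2 = hy
      then sV M (g z).1 - sV M z.1 else 0).Finite := by
  refine supp_of_cell hM p ?_
  intro z hz
  rw [if_neg (fun hh => hz hh.1)]

end support

namespace Cfg

variable {M δ s1 ρ0 ρ1 : ℤ} {v e f : Perm (Z2 × ι)}

/-- **(C3)** -/
theorem cr_f (h : Cfg M δ s1 ρ0 ρ1 v e f) (p : Z2) (hx hy : Bool) :
    cr M f p hx hy = - cr M v p hx hy := by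
  unfold cr
  rw [← finsum_comp_equiv f (f := fun z : Z2 × ι =>
    if aV M z.1 = p ∧ hf M z.1.1 = hx ∧ hf M z.1.2 = hy then sV M (v z).1 - sV M z.1 else 0),
    ← finsum_neg_distrib]
  refine finsum_congr fun z => ?_
  have hl := h.lip (h.nf z)
  have hl2 := h.lip (h.nv (f z))
  have := h.d0; have := h.ds; have := h.d1; have := h.d2; have := h.d3
  by_cases h1 : mx M z.1 < ρ0
  · have e1 := h.f0 z h1
    have e2 := h.v0 h1
    rw [e1, e2]
    simp
  · by_cases h2 : s1 + δ ≤ mn M z.1
    · rw [h.vf h2]
      by_cases hs : sV M (f z).1 = sV M z.1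
      · rw [hs]; simp
      · obtain ⟨q1, q2, q3⟩ := h.f_quad hs
        rw [q1, q2, q3]
        split_ifs
        · ring
        · simp
    · have e1 : sV M (f z).1 = sV M z.1 := by
        rw [sV_eq, sV_eq]
        unfold mx at h1
        unfold mn at h2
        split_ifs <;> omega
      have e2 : sV M (v (f z)).1 = sV M (f z).1 := by
        rw [sV_eq, sV_eq]
        unfold mx at h1
        unfold mn at h2
        split_ifs <;> omega
      rw [e2, e1]
      simp

/-- **(C1)** conservation on the horizontal sectors. -/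
theorem cons_VH [Finite ι] (h : Cfg M δ s1 ρ0 ρ1 v e f) (p : Z2) (hx : Bool) :
    cr M v p hx false + cr M v p hx true = 0 := by
  have hM := h.pos.1
  unfold cr
  rw [← finsum_add_distrib (cr_support hM v p hx false) (cr_support hM v p hx true)]
  let F : Z2 × ι → ℤ := fun z =>
    if aV M z.1 = p ∧ hf M z.1.1 = hx then 1 - sV M z.1 else 0
  have hF : (Function.support F).Finite := supp_of_cell hM p (by
    intro z hz
    change (if aV M z.1 = p ∧ hf M z.1.1 = hx then 1 - sV M z.1 else 0) = 0
    rw [if_neg (fun hh => hz hh.1)])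
  have key := finsum_coboundary v F hF
  rw [← neg_eq_zero, ← finsum_neg_distrib]
  refine Eq.trans (finsum_congr fun z => ?_) key
  have haV := h.aV_v z
  simp only [F]
  rw [haV]
  by_cases hp : aV M z.1 = p
  · by_cases hs : sH M (v z).1 = true
    · have e1 := h.v_H hs
      rw [e1]
      have e2 : sV M (v z).1 = 0 := by simp [sV, hs]
      rw [e2]
      by_cases hq : hf M z.1.1 = hx
      · cases hy : hf M z.1.2 <;> simp [hp, hq]
      · simp [hq]
    · have e2 : sV M (v z).1 = 1 := by simp [sV, hs]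
      rw [e2]
      by_cases hq : hf M z.1.1 = hx
      · cases hy : hf M z.1.2 <;> simp [hp, hq]
      · simp [hq]
  · simp [hp]

/-- **(C1)** conservation on the vertical sectors. -/
theorem cons_VV [Finite ι] (h : Cfg M δ s1 ρ0 ρ1 v e f) (p : Z2) (hy : Bool) :
    cr M v p false hy + cr M v p true hy = 0 := by
  have hM := h.pos.1
  unfold cr
  rw [← finsum_add_distrib (cr_support hM v p false hy) (cr_support hM v p true hy)]
  let F : Z2 × ι → ℤ := fun z =>
    if aV M z.1 = p ∧ hf M z.1.2 = hy then sV M z.1 else 0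
  have hF : (Function.support F).Finite := supp_of_cell hM p (by
    intro z hz
    change (if aV M z.1 = p ∧ hf M z.1.2 = hy then sV M z.1 else 0) = 0
    rw [if_neg (fun hh => hz hh.1)])
  have key := finsum_coboundary v F hF
  refine Eq.trans (finsum_congr fun z => ?_) key
  have haV := h.aV_v z
  simp only [F]
  rw [haV]
  by_cases hp : aV M z.1 = p
  · by_cases hs : sH M (v z).1 = true
    · have e2 : sV M (v z).1 = 0 := by simp [sV, hs]
      rw [e2]
      by_cases hq : hf M z.1.2 = hy
      · cases hx : hf M z.1.1 <;> simp [hp, hq]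
      · simp [hq]
    · have e1 := h.v_V (by simpa using hs)
      rw [e1]
      have e2 : sV M (v z).1 = 1 := by simp [sV, hs]
      rw [e2]
      by_cases hq : hf M z.1.2 = hy
      · cases hx : hf M z.1.1 <;> simp [hp, hq]
      · simp [hq]
  · simp [hp]

/-- Membership in a quadrant, in terms of the face. -/
theorem quad_face (hM : 0 < M) (u P : Z2) (hx hy : Bool) :
    (aV M u = P + ((if hx then 1 else 0), (if hy then 1 else 0)) ∧ hf M u.1 = hx ∧
      hf M u.2 = hy) ↔ (aF M u = P ∧ hf M u.1 = hx ∧ hf M u.2 = hy) := by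
  constructor
  · rintro ⟨h1, h2, h3⟩
    refine ⟨Prod.ext ?_ ?_, h2, h3⟩
    · exact (vI_fI hM h2 P.1).1 (congrArg Prod.fst h1)
    · exact (vI_fI hM h3 P.2).1 (congrArg Prod.snd h1)
  · rintro ⟨h1, h2, h3⟩
    refine ⟨Prod.ext ?_ ?_, h2, h3⟩
    · exact (vI_fI hM h2 P.1).2 (congrArg Prod.fst h1)
    · exact (vI_fI hM h3 P.2).2 (congrArg Prod.snd h1)

theorem cr_face (hM : 0 < M) (g : Perm (Z2 × ι)) (P : Z2) (hx hy : Bool) :
    cr M g (P + ((if hx then 1 else 0), (if hy then 1 else 0))) hx hy =
    ∑ᶠ z : Z2 × ι, if aF M z.1 = P ∧ hf M z.1.1 = hx ∧ hf M z.1.2 = hy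
    then sV M (g z).1 - sV M z.1 else 0 := by
  unfold cr
  refine finsum_congr fun z => ?_
  by_cases hq : aF M z.1 = P ∧ hf M z.1.1 = hx ∧ hf M z.1.2 = hy
  · rw [if_pos hq, if_pos ((quad_face hM z.1 P hx hy).2 hq)]
  · rw [if_neg hq, if_neg (fun hh => hq ((quad_face hM z.1 P hx hy).1 hh))]

theorem fcell_finite [Finite ι] (hM : 0 < M) (P : Z2) :
    {z : Z2 × ι | aF M z.1 = P}.Finite := by
  refine Set.Finite.subset (((vcell_finite (ι := ι) hM (P + (0, 0))).union
    (vcell_finite hM (P + (0, 1)))).union ((vcell_finite hM (P + (1, 0))).union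
    (vcell_finite hM (P + (1, 1))))) ?_
  intro z hz
  have hz' : aF M z.1 = P := hz
  have := (quad_face hM z.1 P (hf M z.1.1) (hf M z.1.2)).2 ⟨hz', rfl, rfl⟩
  have h1 := this.1
  simp only [Set.mem_union]
  cases h2 : hf M z.1.1 <;> cases h3 : hf M z.1.2 <;> rw [h2, h3] at h1
  · left; left; simpa using h1
  · left; right; simpa using h1
  · right; left; simpa using h1
  · right; right; simpa using h1

theorem supp_of_face [Finite ι] (hM : 0 < M) (P : Z2) {F : Z2 × ι → ℤ}
    (hF : ∀ z, aF M z.1 ≠ P → F z = 0) : (Function.support F).Finite := by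
  refine (fcell_finite hM P).subset ?_
  intro z hz
  by_contra hh
  exact hz (hF z hh)

theorem cr_support_face [Finite ι] (hM : 0 < M) (g : Perm (Z2 × ι)) (P : Z2) (hx hy : Bool) :
    (Function.support fun z : Z2 × ι => if aF M z.1 = P ∧ hf M z.1.1 = hx ∧ hf M z.1.2 = hy
      then sV M (g z).1 - sV M z.1 else 0).Finite := by
  refine supp_of_face hM P ?_
  intro z hz
  rw [if_neg (fun hh => hz hh.1)]

/-- **(C2)** conservation on the horizontal triangles. -/
theorem cons_FH [Finite ι] (h : Cfg M δ s1 ρ0 ρ1 v e f) (P : Z2) (hy : Bool) :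
    cr M f (P + (0, (if hy then 1 else 0))) false hy +
      cr M f (P + (1, (if hy then 1 else 0))) true hy = 0 := by
  have hM := h.pos.1
  have e1 := cr_face hM f P false hy
  have e2 := cr_face hM f P true hy
  simp only [Bool.false_eq_true, if_false, if_true] at e1 e2
  rw [e1, e2]
  rw [← finsum_add_distrib (cr_support_face hM f P false hy) (cr_support_face hM f P true hy)]
  let F : Z2 × ι → ℤ := fun z =>
    if aF M z.1 = P ∧ hf M z.1.2 = hy then 1 - sV M z.1 else 0
  have hF : (Function.support F).Finite := supp_of_face hM P (by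
    intro z hz
    change (if aF M z.1 = P ∧ hf M z.1.2 = hy then 1 - sV M z.1 else 0) = 0
    rw [if_neg (fun hh => hz hh.1)])
  have key := finsum_coboundary f F hF
  rw [← neg_eq_zero, ← finsum_neg_distrib]
  refine Eq.trans (finsum_congr fun z => ?_) key
  have haF := h.fF z
  simp only [F]
  rw [haF]
  by_cases hp : aF M z.1 = P
  · by_cases hs : sH M (f z).1 = true
    · have e1 := h.f_H hs
      rw [e1]
      have e2 : sV M (f z).1 = 0 := by simp [sV, hs]
      rw [e2]
      by_cases hq : hf M z.1.2 = hy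
      · cases hx : hf M z.1.1 <;> simp [hp, hq]
      · simp [hq]
    · have e2 : sV M (f z).1 = 1 := by simp [sV, hs]
      rw [e2]
      by_cases hq : hf M z.1.2 = hy
      · cases hx : hf M z.1.1 <;> simp [hp, hq]
      · simp [hq]
  · simp [hp]

/-- **(C2)** conservation on the vertical triangles. -/
theorem cons_FV [Finite ι] (h : Cfg M δ s1 ρ0 ρ1 v e f) (P : Z2) (hx : Bool) :
    cr M f (P + ((if hx then 1 else 0), 0)) hx false +
      cr M f (P + ((if hx then 1 else 0), 1)) hx true = 0 := by
  have hM := h.pos.1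
  have e1 := cr_face hM f P hx false
  have e2 := cr_face hM f P hx true
  simp only [Bool.false_eq_true, if_false, if_true] at e1 e2
  rw [e1, e2]
  rw [← finsum_add_distrib (cr_support_face hM f P hx false) (cr_support_face hM f P hx true)]
  let F : Z2 × ι → ℤ := fun z =>
    if aF M z.1 = P ∧ hf M z.1.1 = hx then sV M z.1 else 0
  have hF : (Function.support F).Finite := supp_of_face hM P (by
    intro z hz
    change (if aF M z.1 = P ∧ hf M z.1.1 = hx then sV M z.1 else 0) = 0
    rw [if_neg (fun hh => hz hh.1)])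
  have key := finsum_coboundary f F hF
  refine Eq.trans (finsum_congr fun z => ?_) key
  have haF := h.fF z
  simp only [F]
  rw [haF]
  by_cases hp : aF M z.1 = P
  · by_cases hs : sH M (f z).1 = true
    · have e2 : sV M (f z).1 = 0 := by simp [sV, hs]
      rw [e2]
      by_cases hq : hf M z.1.1 = hx
      · cases hy : hf M z.1.2 <;> simp [hp, hq]
      · simp [hq]
    · have e1 := h.f_V (by simpa using hs)
      rw [e1]
      have e2 : sV M (f z).1 = 1 := by simp [sV, hs]
      rw [e2]
      by_cases hq : hf M z.1.1 = hx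
      · cases hy : hf M z.1.2 <;> simp [hp, hq]
      · simp [hq]
  · simp [hp]

/-- **Conservation**: if the crossing number vanishes at one quadrant, then at all. -/
theorem cr_v_eq_zero [Finite ι] (h : Cfg M δ s1 ρ0 ρ1 v e f)
    (h0 : cr M v 0 false false = 0) (p : Z2) (hx hy : Bool) : cr M v p hx hy = 0 := by
  have stepx : ∀ P : Z2, cr M v (P + (1, 0)) false false = cr M v P false false := by
    intro P
    have h1 := h.cons_FH P false
    have h2 := h.cons_VV (P + (1, 0)) false
    simp only [Bool.false_eq_true, if_false] at h1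
    rw [h.cr_f, h.cr_f] at h1
    have e0 : P + ((0 : ℤ), (0 : ℤ)) = P := by simp
    rw [e0] at h1
    omega
  have stepy : ∀ P : Z2, cr M v (P + (0, 1)) false false = cr M v P false false := by
    intro P
    have h1 := h.cons_FV P false
    have h2 := h.cons_VH (P + (0, 1)) false
    simp only [Bool.false_eq_true, if_false] at h1
    rw [h.cr_f, h.cr_f] at h1
    have e0 : P + ((0 : ℤ), (0 : ℤ)) = P := by simp
    rw [e0] at h1
    omega
  have hxx : ∀ k : ℤ, cr M v (k, 0) false false = 0 := by
    intro k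
    induction k using Int.induction_on with
    | zero => exact h0
    | succ k ih =>
      have := stepx ((k : ℤ), 0)
      simp only [Prod.mk_add_mk, add_zero] at this
      rw [this, ih]
    | pred k ih =>
      have := stepx (-(k : ℤ) - 1, 0)
      simp only [Prod.mk_add_mk, add_zero, sub_add_cancel] at this
      rw [← this, ih]
  have hyy : ∀ k l : ℤ, cr M v (k, l) false false = 0 := by
    intro k l
    induction l using Int.induction_on with
    | zero => exact hxx k
    | succ l ih =>
      have := stepy (k, (l : ℤ))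
      simp only [Prod.mk_add_mk, add_zero] at this
      rw [this, ih]
    | pred l ih =>
      have := stepy (k, -(l : ℤ) - 1)
      simp only [Prod.mk_add_mk, add_zero, sub_add_cancel] at this
      rw [← this, ih]
  have h00 := hyy p.1 p.2
  have e : (p.1, p.2) = p := rfl
  rw [e] at h00
  have h1 := h.cons_VH p false
  have h2 := h.cons_VV p false
  have h3 := h.cons_VH p true
  cases hx <;> cases hy <;> omega

theorem cr_f_eq_zero [Finite ι] (h : Cfg M δ s1 ρ0 ρ1 v e f)
    (h0 : cr M v 0 false false = 0) (p : Z2) (hx hy : Bool) : cr M f p hx hy = 0 := by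
  rw [h.cr_f, h.cr_v_eq_zero h0, neg_zero]

/-- crossing number of the inverse -/
theorem cr_v_inv (h : Cfg M δ s1 ρ0 ρ1 v e f) (p : Z2) (hx hy : Bool) :
    cr M v⁻¹ p hx hy = - cr M v p hx hy := by
  unfold cr
  rw [← finsum_comp_equiv v (f := fun z : Z2 × ι =>
    if aV M z.1 = p ∧ hf M z.1.1 = hx ∧ hf M z.1.2 = hy then sV M (v⁻¹ z).1 - sV M z.1 else 0),
    ← finsum_neg_distrib]
  refine finsum_congr fun z => ?_
  have e0 : v⁻¹ (v z) = z := by simp
  rw [e0, h.aV_v]
  by_cases hs : sV M (v z).1 = sV M z.1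
  · rw [hs]; simp
  · obtain ⟨q2, q3⟩ := h.v_quad hs
    rw [q2, q3]
    split_ifs
    · ring
    · simp

theorem cr_f_inv (h : Cfg M δ s1 ρ0 ρ1 v e f) (p : Z2) (hx hy : Bool) :
    cr M f⁻¹ p hx hy = - cr M f p hx hy := by
  unfold cr
  rw [← finsum_comp_equiv f (f := fun z : Z2 × ι =>
    if aV M z.1 = p ∧ hf M z.1.1 = hx ∧ hf M z.1.2 = hy then sV M (f⁻¹ z).1 - sV M z.1 else 0),
    ← finsum_neg_distrib]
  refine finsum_congr fun z => ?_
  have e0 : f⁻¹ (f z) = z := by simp
  rw [e0]
  by_cases hs : sV M (f z).1 = sV M z.1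
  · rw [hs]; simp
  · obtain ⟨q1, q2, q3⟩ := h.f_quad hs
    rw [q1, q2, q3]
    split_ifs
    · ring
    · simp

end Cfg

/-- From the crossing number to cardinalities, on any finite set describing the quadrant. -/
theorem card_eq_of_cr {M : ℤ} {g : Perm (Z2 × ι)} {p : Z2} {hx hy : Bool}
    (h : cr M g p hx hy = 0) (c : Finset (Z2 × ι))
    (hc : ∀ z, z ∈ c ↔ (aV M z.1 = p ∧ hf M z.1.1 = hx ∧ hf M z.1.2 = hy)) :
    (c.filter (fun z => sH M z.1 = true ∧ sH M (g z).1 = false)).card =
      (c.filter (fun z => sH M z.1 = false ∧ sH M (g z).1 = true)).card := by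
  have h1 : cr M g p hx hy
      = ((c.filter (fun z => sH M z.1 = true ∧ sH M (g z).1 = false)).card : ℤ)
        - ((c.filter (fun z => sH M z.1 = false ∧ sH M (g z).1 = true)).card : ℤ) := by
    unfold cr
    rw [finsum_eq_sum_of_support_subset (s := c)]
    · rw [Finset.card_filter, Finset.card_filter]
      push_cast
      rw [← Finset.sum_sub_distrib]
      refine Finset.sum_congr rfl fun z hz => ?_
      rw [if_pos ((hc z).1 hz)]
      unfold sV
      cases sH M z.1 <;> cases sH M (g z).1 <;> simp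
    · intro z hz
      by_contra hcon
      apply hz
      exact if_neg (fun hh => hcon (Finset.mem_coe.2 ((hc z).2 hh)))
  omega

/-- The crossing number at the north-east quadrant of the origin is minus the flux. -/
theorem cr_origin [Finite ι] {r : ℤ} {w : List (H513.Letter ι)} (h : H513.Bd r w) (hr : 0 ≤ r)
    (hw : H513.wprod w = 1) (M C : ℤ) (hM0 : 0 < M) (hC : 2 * r * w.length + r ≤ C)
    (hM : 5 * C ≤ M)
    (D : ℕ → Set Z2) (hs : ∀ i, disc (5 * C) ⊆ D i)
    (hgap : ∀ i, ∀ c ∈ D i, c ∈ disc (M + C) → c ∈ disc (M - 3 * C - 1)) :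
    cr M (H513.wd w D) 0 false false = - H513.flux w := by
  rw [← cross_NE h hr hw M C hC hM D hs hgap]
  unfold cr
  refine finsum_congr fun z => ?_
  have : (aV M z.1 = 0 ∧ hf M z.1.1 = false ∧ hf M z.1.2 = false) ↔ isNE M z.1 := by
    have h1 := Cfg.quad_face hM0 z.1 0 false false
    simp only [Bool.false_eq_true, if_false, zero_add] at h1
    have e0 : (((0 : ℤ), (0 : ℤ)) : Z2) = 0 := rfl
    rw [e0] at h1
    rw [h1]
    obtain ⟨k, c, hk, h2, h3⟩ := dI_cases hM0 z.1.1
    obtain ⟨l, d, hl, h4, h5⟩ := dI_cases hM0 z.1.2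
    have hF : aF M z.1 = (k, l) := by
      refine Prod.ext ?_ ?_
      · change fI M z.1.1 = k
        rw [hk, fI_face h2 h3]
      · change fI M z.1.2 = l
        rw [hl, fI_face h4 h5]
    rw [hF, hk, hl, hf_face h2 h3, hf_face h4 h5]
    unfold isNE
    rw [hk, hl]
    constructor
    · rintro ⟨h6, h7, h8⟩
      have h9 : k = 0 := congrArg Prod.fst h6
      have h10 : l = 0 := congrArg Prod.snd h6
      subst h9
      subst h10
      simp only [decide_eq_false_iff_not, not_le] at h7 h8
      omega
    · rintro ⟨h6, h7, h8, h9⟩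
      have hk0 : k = 0 := by
        have a1 : 2 * M * k < 2 * M * 1 := by omega
        have a2 : 2 * M * (-1) < 2 * M * k := by omega
        have a3 := lt_of_mul_lt_mul_left a1 (by omega)
        have a4 := lt_of_mul_lt_mul_left a2 (by omega)
        omega
      have hl0 : l = 0 := by
        have a1 : 2 * M * l < 2 * M * 1 := by omega
        have a2 : 2 * M * (-1) < 2 * M * l := by omega
        have a3 := lt_of_mul_lt_mul_left a1 (by omega)
        have a4 := lt_of_mul_lt_mul_left a2 (by omega)
        omega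
      subst hk0
      subst hl0
      refine ⟨rfl, ?_, ?_⟩
      · simp only [decide_eq_false_iff_not, not_le]; omega
      · simp only [decide_eq_false_iff_not, not_le]; omega
  simp only [this]

end Vale.Agent.P196.H366
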