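import Vale.Agent.P196.H366.Quad
import Vale.Agent.P196.H513.Flux

/-! P196, block S-FLUX: the crossing number at the north-east quadrant of the origin, for the
common letters and the flux of `H513`. -/

namespace Vale.Agent.P196.H366

open Equiv Vale.Agent.P196.Cut Vale.Agent.P196.H513

variable {ι : Type*}

theorem mem_disc {R : ℤ} {c : Z2} : c ∈ disc R ↔ |c.1| ≤ R ∧ |c.2| ≤ R := Iff.rfl

/-- **Flux at the north-east quadrant of the origin**, common letters. `D i` may be infinite
(periodic), as long as near the vertex cell of the origin it contains a big box and stays away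
from the boundary of the cell. -/
theorem cross_NE [Finite ι] {r : ℤ} {w : List (H513.Letter ι)} (h : Bd r w) (hr : 0 ≤ r)
    (hw : wprod w = 1) (M C : ℤ) (hC : 2 * r * w.length + r ≤ C) (hM : 5 * C ≤ M)
    (D : ℕ → Set Z2) (hs : ∀ i, disc (5 * C) ⊆ D i)
    (hgap : ∀ i, ∀ c ∈ D i, c ∈ disc (M + C) → c ∈ disc (M - 3 * C - 1)) :
    ∑ᶠ z : Z2 × ι, (if isNE M z.1 then sV M (wd w D z).1 - sV M z.1 else 0) = - H513.flux w := by
  classical
  have hC0 : 0 ≤ 2 * r * (w.length : ℤ) := by positivity
  have hCC : 0 ≤ C := by omega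
  let D' : ℕ → Set Z2 := fun i => D i ∩ disc M
  rw [← cross_eq_neg_flux h hr hw D' (5 * C) (by omega)
    (fun i u h1 h2 => ⟨hs i ⟨h1, h2⟩, disc_mono hM ⟨h1, h2⟩⟩) M (fun i u hu => hu.2)]
  refine finsum_congr fun z => ?_
  -- displacement
  have n' : near C (wd w D' z).1 z.1 := by
    have := wd_disp h D' z
    exact ⟨this.1.trans (by omega), this.2.trans (by omega)⟩
  have hnear : ∀ {u : Z2}, Near (2 * r * w.length + r) z.1 u → near C u z.1 :=
    fun hu => ⟨hu.1.trans hC, hu.2.trans hC⟩
  -- far from the origin cell boundary nothing moves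
  have hout : z.1 ∉ disc (M - 2 * C - 1) → wd w D' z = z := by
    intro hz
    refine wd_eq_self h hr D' z ?_
    intro i c hc hcD
    apply hz
    have h2 := hgap i c hcD.1 (disc_mono (by omega) hcD.2)
    exact disc_mono (by omega) (near_disc h2 (hnear hc))
  -- near the origin nothing moves
  have hin : z.1 ∈ disc (4 * C) → wd w D' z = z := by
    intro hz
    refine wd_eq_self_of_univ h hr hw D' z ?_
    intro i c hc
    have h2 : c ∈ disc (5 * C) := disc_mono (by omega) (near_disc hz (near_symm (hnear hc)))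
    exact ⟨hs i h2, disc_mono (by omega) h2⟩
  -- in the quadrant both products agree
  have hagree : isNE M z.1 → wd w D z = wd w D' z := by
    intro hz
    refine wd_congr h hr D D' z ?_
    intro i c hc
    refine ⟨fun hcD => ⟨hcD, ?_⟩, fun h => h.1⟩
    have hzM : z.1 ∈ disc M := by
      simp only [isNE, disc, Set.mem_ofPred_eq, abs_le] at *
      omega
    exact disc_mono (by omega) (hgap i c hcD (near_disc hzM (near_symm (hnear hc))))
  by_cases hm : wd w D' z = z
  · rw [hm, sub_self, ite_self]
    split_ifs with hq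
    · rw [hagree hq, hm, sub_self]
    · rfl
  · have hz1 : z.1 ∈ disc (M - 2 * C - 1) := by
      by_contra h; exact hm (hout h)
    have hz2 : z.1 ∉ disc (4 * C) := fun h => hm (hin h)
    have hz3 : (wd w D' z).1 ∈ disc (M - 1) := by
      exact disc_mono (by omega) (near_disc hz1 (near_symm n'))
    have hq' : isNE M z.1 ↔ (0 ≤ z.1.1 ∧ 0 ≤ z.1.2) := by
      simp only [near, disc, Set.mem_ofPred_eq, isNE, abs_le] at *
      omega
    have e1 : ∀ u : Z2 × ι, chi (up ι) u = if u.1.1 < u.1.2 then 1 else 0 := by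
      intro u
      unfold chi up
      by_cases hh : u.1.1 < u.1.2 <;> simp [hh]
    rw [e1, e1]
    by_cases hq : isNE M z.1
    · rw [if_pos hq, if_pos (hq'.1 hq), hagree hq]
      generalize wd w D' z = w' at *
      obtain ⟨⟨x', y'⟩, f'⟩ := w'
      simp only [near, disc, Set.mem_ofPred_eq, isNE, abs_le] at *
      unfold sV sH
      simp only [decide_eq_true_eq]
      rw [dI_small (M := M) (x := z.1.1) (by omega) (by omega),
        dI_small (M := M) (x := z.1.2) (by omega) (by omega),
        dI_small (M := M) (x := x') (by omega) (by omega),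
        dI_small (M := M) (x := y') (by omega) (by omega)]
      clear hout hin hagree hm hs hgap hnear e1
      split_ifs <;> omega
    · rw [if_neg hq, if_neg (fun hh => hq (hq'.2 hh))]

/-- The cells of the north-east quadrant, as a finite set of sites. -/
noncomputable def qNE (ι : Type*) [Fintype ι] (M : ℤ) : Finset (Z2 × ι) :=
  (Finset.Icc 0 (M - 1) ×ˢ Finset.Icc 0 (M - 1)) ×ˢ Finset.univ

theorem mem_qNE {ι : Type*} [Fintype ι] {M : ℤ} {z : Z2 × ι} : z ∈ qNE ι M ↔ isNE M z.1 := by
  simp only [qNE, Finset.mem_product, Finset.mem_Icc, Finset.mem_univ, and_true, isNE]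
  omega

/-- The crossing number as a difference of two cardinalities. -/
theorem card_cross {ι : Type*} [Fintype ι] [DecidableEq ι] (M : ℤ) (g : Perm (Z2 × ι)) :
    ∑ᶠ z : Z2 × ι, (if isNE M z.1 then sV M (g z).1 - sV M z.1 else 0)
      = (((qNE ι M).filter (fun z => sH M z.1 = true ∧ sH M (g z).1 = false)).card : ℤ)
        - (((qNE ι M).filter (fun z => sH M z.1 = false ∧ sH M (g z).1 = true)).card : ℤ) := by
  rw [finsum_eq_sum_of_support_subset (s := qNE ι M)]
  · rw [Finset.card_filter, Finset.card_filter]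
    push_cast
    rw [← Finset.sum_sub_distrib]
    refine Finset.sum_congr rfl fun z hz => ?_
    rw [if_pos (mem_qNE.1 hz)]
    unfold sV
    cases sH M z.1 <;> cases sH M (g z).1 <;> simp
  · intro z hz
    by_contra hcon
    apply hz
    change (if isNE M z.1 then sV M (g z).1 - sV M z.1 else 0) = 0
    rw [if_neg (fun hh => hcon (Finset.mem_coe.2 (mem_qNE.2 hh)))]

/-- The inverse word. -/
def invw (w : List (H513.Letter ι)) : List (H513.Letter ι) :=
  (w.map (fun l => ⟨l.σ, l.E, l.a⁻¹⟩)).reverse

theorem wd_invw (w : List (H513.Letter ι)) (D : Set Z2) :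
    wd (invw w) (fun _ => D) = (wd w (fun _ => D))⁻¹ := by
  induction w with
  | nil => simp [invw]
  | cons l w ih =>
    have : invw (l :: w) = invw w ++ [⟨l.σ, l.E, l.a⁻¹⟩] := by simp [invw]
    rw [this, wd_append_const, ih, wd_cons, wd_cons, wd_nil, mul_one, mul_inv_rev, X_inv]

theorem flux_invw [Finite ι] {w : List (H513.Letter ι)} (hw : wprod w = 1) :
    H513.flux (invw w) = - H513.flux w := by
  unfold H513.flux
  rw [wd_invw, trans_inv (flux_cm hw)]

end Vale.Agent.P196.H366
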