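import Mathlib

/-! P196, block S-FLUX: the flux of a word of restricted letters.

A letter is a permutation of `(ℤ × ℤ) × ι` with an invariant cell map; it can be
restricted to any set of cells.  For a word which is trivial, the net crossing
number of the restricted word through the north-east diagonal ray does not depend
on the restriction. -/

namespace Vale.Agent.P196.H366

open Equiv

abbrev Z2 := ℤ × ℤ

variable {ι : Type*}

/-- A permutation together with an invariant cell map. -/
structure Letter (ι : Type*) where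
  g : Perm (Z2 × ι)
  k : Z2 × ι → Z2
  k_g : ∀ p, k (g p) = k p

/-- sup-distance at most `C`. -/
def near (C : ℤ) (x y : Z2) : Prop := |x.1 - y.1| ≤ C ∧ |x.2 - y.2| ≤ C

/-- The box of radius `R` around the origin. -/
def disc (R : ℤ) : Set Z2 := {c | |c.1| ≤ R ∧ |c.2| ≤ R}

/-- The cell of every point is at distance at most `ρ`. -/
def Letter.Bdd (l : Letter ι) (ρ : ℤ) : Prop := ∀ p, near ρ (l.k p) p.1

theorem Letter.k_symm (l : Letter ι) (p : Z2 × ι) : l.k (l.g.symm p) = l.k p := by
  have := l.k_g (l.g.symm p)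
  rw [Equiv.apply_symm_apply] at this
  exact this.symm

open Classical in
/-- Restriction of a letter to a set of cells. -/
noncomputable def Letter.res (l : Letter ι) (D : Set Z2) : Perm (Z2 × ι) where
  toFun p := if l.k p ∈ D then l.g p else p
  invFun p := if l.k p ∈ D then l.g.symm p else p
  left_inv p := by
    by_cases h : l.k p ∈ D
    · simp [h, l.k_g]
    · simp [h]
  right_inv p := by
    by_cases h : l.k p ∈ D
    · simp [h, l.k_symm]
    · simp [h]

theorem Letter.res_mem {l : Letter ι} {D : Set Z2} {p : Z2 × ι} (h : l.k p ∈ D) :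
    l.res D p = l.g p := by
  simp [Letter.res, h]

theorem Letter.res_not_mem {l : Letter ι} {D : Set Z2} {p : Z2 × ι} (h : l.k p ∉ D) :
    l.res D p = p := by
  simp [Letter.res, h]

theorem Letter.k_res (l : Letter ι) (D : Set Z2) (p : Z2 × ι) : l.k (l.res D p) = l.k p := by
  by_cases h : l.k p ∈ D
  · rw [Letter.res_mem h, l.k_g]
  · rw [Letter.res_not_mem h]

/-- A word with a restriction for every letter. -/
noncomputable def wr : List (Letter ι) → (ℕ → Set Z2) → Perm (Z2 × ι)
  | [], _ => 1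
  | l :: L, D => l.res (D 0) * wr L (fun i => D (i + 1))

theorem near_refl {C : ℤ} (hC : 0 ≤ C) (x : Z2) : near C x x := by
  simp [near, hC]

theorem near_symm {C : ℤ} {x y : Z2} (h : near C x y) : near C y x := by
  unfold near at *
  rw [abs_sub_comm y.1, abs_sub_comm y.2]; exact h

theorem near_trans {C D : ℤ} {x y z : Z2} (h : near C x y) (h' : near D y z) :
    near (C + D) x z := by
  unfold near at *
  simp only [abs_le] at *
  omega

theorem near_mono {C D : ℤ} (hCD : C ≤ D) {x y : Z2} (h : near C x y) : near D x y :=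
  ⟨h.1.trans hCD, h.2.trans hCD⟩

theorem res_near {l : Letter ι} {ρ : ℤ} (hl : l.Bdd ρ) (D : Set Z2) (p : Z2 × ι) :
    near (2 * ρ) (l.res D p).1 p.1 := by
  have h1 := hl (l.res D p)
  rw [l.k_res] at h1
  have := near_trans (near_symm h1) (hl p)
  rwa [two_mul]

theorem wr_near {ρ : ℤ} : ∀ (L : List (Letter ι)), (∀ l ∈ L, l.Bdd ρ) → ∀ (D : ℕ → Set Z2)
    (p : Z2 × ι), near (2 * ρ * L.length) (wr L D p).1 p.1
  | [], _, D, p => by simp [wr, near]
  | l :: L, hL, D, p => by
    have h1 := wr_near L (fun l' h' => hL l' (List.mem_cons_of_mem _ h')) (fun i => D (i + 1)) p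
    have h2 := res_near (hL l List.mem_cons_self) (D 0) (wr L (fun i => D (i + 1)) p)
    have := near_trans h2 h1
    have e : 2 * ρ * ((l :: L).length : ℤ) = 2 * ρ + 2 * ρ * L.length := by
      push_cast [List.length_cons]; ring
    rw [e]
    exact this

/-- above the diagonal -/
def bb (z : Z2) : ℤ := if z.1 < z.2 then 1 else 0

/-- The closed one-form: net crossing of the north-east diagonal ray. -/
def W (z z' : Z2) : ℤ := if 0 < z.1 + z.2 then bb z' - bb z else 0

theorem W_self (z : Z2) : W z z = 0 := by simp [W]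

theorem W_exact {C : ℤ} {z0 z1 z2 : Z2} (h1 : near C z1 z0) (h2 : near C z2 z0)
    (hf : z0 ∉ disc (4 * C)) : W z0 z1 + W z1 z2 = W z0 z2 := by
  obtain ⟨x0, y0⟩ := z0
  obtain ⟨x1, y1⟩ := z1
  obtain ⟨x2, y2⟩ := z2
  simp only [near, disc, Set.mem_ofPred_eq, W, bb, abs_le] at *
  split_ifs <;> omega

/-- Sum of `W` along the steps of the path of a point under a word. -/
noncomputable def psum : List (Letter ι) → (ℕ → Set Z2) → Z2 × ι → ℤ
  | [], _, _ => 0
  | l :: L, D, z => W (wr L (fun i => D (i + 1)) z).1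
      (l.res (D 0) (wr L (fun i => D (i + 1)) z)).1 + psum L (fun i => D (i + 1)) z

theorem psum_far {ρ : ℤ} (hρ : 0 ≤ ρ) : ∀ (L : List (Letter ι)), (∀ l ∈ L, l.Bdd ρ) →
    ∀ (C : ℤ), 2 * ρ * L.length ≤ C → ∀ (D : ℕ → Set Z2) (z : Z2 × ι), z.1 ∉ disc (4 * C) →
    psum L D z = W z.1 (wr L D z).1
  | [], _, C, _, D, z, _ => by simp [psum, wr, W_self]
  | l :: L, hL, C, hC, D, z, hz => by
    have hL' : ∀ l' ∈ L, l'.Bdd ρ := fun l' h' => hL l' (List.mem_cons_of_mem _ h')
    have hC' : 2 * ρ * L.length ≤ C := by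
      refine le_trans ?_ hC
      push_cast [List.length_cons]
      nlinarith
    have ih := psum_far hρ L hL' C hC' (fun i => D (i + 1)) z hz
    have h1 : near C (wr L (fun i => D (i + 1)) z).1 z.1 :=
      near_mono hC' (wr_near L hL' _ z)
    have h2 : near C (wr (l :: L) D z).1 z.1 := near_mono hC (wr_near (l :: L) hL D z)
    have := W_exact h1 h2 hz
    rw [psum, ih]
    change W (wr L (fun i => D (i + 1)) z).1 (wr (l :: L) D z).1 + W z.1 (wr L (fun i => D (i + 1)) z).1 = _
    linarith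

theorem wr_psum_loc {ρ : ℤ} (hρ : 0 ≤ ρ) : ∀ (L : List (Letter ι)), (∀ l ∈ L, l.Bdd ρ) →
    ∀ (C : ℤ), 2 * ρ * L.length ≤ C → ∀ (D D' : ℕ → Set Z2) (z : Z2 × ι),
    (∀ i, ∀ c, near C c z.1 → (c ∈ D i ↔ c ∈ D' i)) →
    wr L D z = wr L D' z ∧ psum L D z = psum L D' z
  | [], _, C, _, D, D', z, _ => by simp [wr, psum]
  | l :: L, hL, C, hC, D, D', z, h => by
    have hL' : ∀ l' ∈ L, l'.Bdd ρ := fun l' h' => hL l' (List.mem_cons_of_mem _ h')
    have hC1 : 2 * ρ * L.length + 2 * ρ ≤ C := by
      refine le_trans ?_ hC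
      push_cast [List.length_cons]
      nlinarith
    have hC' : 2 * ρ * L.length ≤ C := by omega
    obtain ⟨e1, e2⟩ := wr_psum_loc hρ L hL' C hC' (fun i => D (i + 1)) (fun i => D' (i + 1)) z
      (fun i c hc => h (i + 1) c hc)
    have hres : l.res (D 0) (wr L (fun i => D' (i + 1)) z)
        = l.res (D' 0) (wr L (fun i => D' (i + 1)) z) := by
      have hk : near C (l.k (wr L (fun i => D' (i + 1)) z)) z.1 := by
        have h1 := hL l List.mem_cons_self (wr L (fun i => D' (i + 1)) z)
        have h2 := wr_near L hL' (fun i => D' (i + 1)) z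
        exact near_mono (by omega) (near_trans h1 h2)
      by_cases hm : l.k (wr L (fun i => D' (i + 1)) z) ∈ D 0
      · rw [Letter.res_mem hm, Letter.res_mem ((h 0 _ hk).1 hm)]
      · rw [Letter.res_not_mem hm, Letter.res_not_mem (fun hm' => hm ((h 0 _ hk).2 hm'))]
    constructor
    · change l.res (D 0) (wr L (fun i => D (i + 1)) z) = l.res (D' 0) (wr L (fun i => D' (i + 1)) z)
      rw [e1, hres]
    · rw [psum, psum, e1, e2, hres]


/-! ### Finite supports -/

theorem disc_finite (R : ℤ) : (disc R).Finite := by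
  refine ((Set.finite_Icc (-R) R).prod (Set.finite_Icc (-R) R)).subset ?_
  intro c hc
  simp only [disc, Set.mem_ofPred_eq, abs_le] at hc
  exact ⟨⟨hc.1.1, hc.1.2⟩, ⟨hc.2.1, hc.2.2⟩⟩

theorem pts_finite [Finite ι] (R : ℤ) : {z : Z2 × ι | z.1 ∈ disc R}.Finite := by
  refine ((disc_finite R).prod (Set.finite_univ (α := ι))).subset ?_
  intro z hz
  exact ⟨hz, Set.mem_univ _⟩

theorem exists_disc {D : Set Z2} (hD : D.Finite) : ∃ R : ℤ, D ⊆ disc R := by
  induction D, hD using Set.Finite.induction_on with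
  | empty => exact ⟨0, by simp⟩
  | @insert a s _ _ ih =>
    obtain ⟨R, hR⟩ := ih
    refine ⟨max R (max |a.1| |a.2|), ?_⟩
    intro c hc
    rcases Set.mem_insert_iff.1 hc with rfl | hc
    · exact ⟨le_max_of_le_right (le_max_left _ _), le_max_of_le_right (le_max_right _ _)⟩
    · have := hR hc
      exact ⟨this.1.trans (le_max_left _ _), this.2.trans (le_max_left _ _)⟩

theorem near_disc {R C : ℤ} {x y : Z2} (hx : x ∈ disc R) (h : near C x y) : y ∈ disc (R + C) := by
  simp only [disc, near, Set.mem_ofPred_eq, abs_le] at *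
  omega

theorem disc_mono {R R' : ℤ} (h : R ≤ R') : disc R ⊆ disc R' := by
  intro c hc
  exact ⟨hc.1.trans h, hc.2.trans h⟩

theorem cell_finite [Finite ι] {l : Letter ι} {ρ : ℤ} (hl : l.Bdd ρ) {D : Set Z2}
    (hD : D.Finite) : {z : Z2 × ι | l.k z ∈ D}.Finite := by
  obtain ⟨R, hR⟩ := exists_disc hD
  refine (pts_finite (R + ρ)).subset ?_
  intro z hz
  exact near_disc (hR hz) (hl z)

/-- Total crossing of a restricted letter. -/
noncomputable def SS (l : Letter ι) (D : Set Z2) : ℤ := ∑ᶠ z : Z2 × ι, W z.1 (l.res D z).1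

theorem SS_support [Finite ι] {l : Letter ι} {ρ : ℤ} (hl : l.Bdd ρ) {D : Set Z2}
    (hD : D.Finite) : (Function.support (fun z : Z2 × ι => W z.1 (l.res D z).1)).Finite := by
  refine (cell_finite hl hD).subset ?_
  intro z hz
  by_contra h
  apply hz
  change W z.1 (l.res D z).1 = 0
  have h' : l.k z ∉ D := h
  rw [Letter.res_not_mem h', W_self]

theorem finsum_coboundary {α : Type*} (e : Perm α) (F : α → ℤ) (hF : (Function.support F).Finite) :
    ∑ᶠ z, (F (e z) - F z) = 0 := by
  have h2 : (Function.support (fun z => F (e z))).Finite := by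
    have : Function.support (fun z => F (e z)) = e ⁻¹' Function.support F := rfl
    rw [this]
    exact hF.preimage e.injective.injOn
  rw [finsum_sub_distrib h2 hF, finsum_comp_equiv e]
  simp

open Classical in
theorem SS_eq [Finite ι] {l : Letter ι} {ρ : ℤ} (hl : l.Bdd ρ) {D : Set Z2}
    (hD : D.Finite) (hsub : disc (4 * ρ) ⊆ D) : SS l D = SS l (disc (4 * ρ)) := by
  have h1 := SS_support hl hD
  have h2 := SS_support hl (disc_finite (4 * ρ))
  rw [← sub_eq_zero, SS, SS, ← finsum_sub_distrib h1 h2]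
  let F : Z2 × ι → ℤ := fun z =>
    if l.k z ∈ D ∧ l.k z ∉ disc (4 * ρ) ∧ 0 < (l.k z).1 + (l.k z).2 then bb z.1 else 0
  have hF : (Function.support F).Finite := by
    refine (cell_finite hl hD).subset ?_
    intro z hz
    by_contra h
    apply hz
    have : ¬ (l.k z ∈ D ∧ l.k z ∉ disc (4 * ρ) ∧ 0 < (l.k z).1 + (l.k z).2) := fun h' => h h'.1
    simp only [F, if_neg this]
  rw [← finsum_coboundary l.g F hF]
  congr 1
  funext z
  by_cases hd : l.k z ∈ disc (4 * ρ)
  · have hz : ¬ (l.k z ∈ D ∧ l.k z ∉ disc (4 * ρ) ∧ 0 < (l.k z).1 + (l.k z).2) :=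
      fun h' => h'.2.1 hd
    simp only [F, l.k_g, if_neg hz, Letter.res_mem hd, Letter.res_mem (hsub hd)]
    simp
  · by_cases hD' : l.k z ∈ D
    · have e := W_exact (near_symm (hl z)) (z0 := l.k z) (z1 := z.1) (z2 := (l.g z).1)
        (by have := hl (l.g z); rw [l.k_g] at this; exact near_symm this) hd
      rw [Letter.res_mem hD', Letter.res_not_mem hd, W_self]
      simp only [F, l.k_g, hD', hd, not_false_eq_true, true_and]
      unfold W at e ⊢
      split_ifs at e ⊢ <;> omega
    · have hz : ¬ (l.k z ∈ D ∧ l.k z ∉ disc (4 * ρ) ∧ 0 < (l.k z).1 + (l.k z).2) :=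
        fun h' => hD' h'.1
      simp only [F, l.k_g, if_neg hz, Letter.res_not_mem hd, Letter.res_not_mem hD']
      simp

theorem finsum_psum [Finite ι] {ρ : ℤ} : ∀ (L : List (Letter ι)), (∀ l ∈ L, l.Bdd ρ) →
    ∀ (D : ℕ → Set Z2), (∀ i, (D i).Finite) → (∀ i, disc (4 * ρ) ⊆ D i) →
    (Function.support (fun z => psum L D z)).Finite ∧
    ∑ᶠ z, psum L D z = (L.map (fun l => SS l (disc (4 * ρ)))).sum
  | [], _, D, _, _ => by
    refine ⟨?_, ?_⟩
    · have : (fun z : Z2 × ι => psum ([] : List (Letter ι)) D z) = fun _ => 0 := rfl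
      rw [this]; simp
    · simp [psum]
  | l :: L, hL, D, hD, hs => by
    have hL' : ∀ l' ∈ L, l'.Bdd ρ := fun l' h' => hL l' (List.mem_cons_of_mem _ h')
    have hl := hL l List.mem_cons_self
    obtain ⟨f1, f2⟩ := finsum_psum L hL' (fun i => D (i + 1)) (fun i => hD _) (fun i => hs _)
    let e : Perm (Z2 × ι) := wr L (fun i => D (i + 1))
    have hsup := SS_support hl (hD 0)
    have g1 : (Function.support (fun z => W (e z).1 (l.res (D 0) (e z)).1)).Finite := by
      have : Function.support (fun z => W (e z).1 (l.res (D 0) (e z)).1)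
        = e ⁻¹' Function.support (fun z : Z2 × ι => W z.1 (l.res (D 0) z).1) := rfl
      rw [this]
      exact hsup.preimage e.injective.injOn
    have g2 : ∑ᶠ z, W (e z).1 (l.res (D 0) (e z)).1 = SS l (D 0) :=
      finsum_comp_equiv e (f := fun z : Z2 × ι => W z.1 (l.res (D 0) z).1)
    have heq : (fun z => psum (l :: L) D z) = fun z => W (e z).1 (l.res (D 0) (e z)).1 +
      psum L (fun i => D (i + 1)) z := rfl
    rw [heq]
    refine ⟨(g1.union f1).subset (Function.support_add _ _), ?_⟩
    rw [finsum_add_distrib g1 f1, g2, f2, SS_eq hl (hD 0) (hs 0)]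
    simp

/-- The flux of a word. -/
noncomputable def flux (ρ : ℤ) (L : List (Letter ι)) : ℤ :=
  (L.map (fun l => SS l (disc (4 * ρ)))).sum - ∑ᶠ z : Z2 × ι, psum L (fun _ => Set.univ) z

theorem wr_append (L L' : List (Letter ι)) :
    wr (L ++ L') (fun _ => Set.univ) = wr L (fun _ => Set.univ) * wr L' (fun _ => Set.univ) := by
  induction L with
  | nil => simp [wr]
  | cons l L ih =>
    change l.res Set.univ * wr (L ++ L') (fun _ => Set.univ) = _
    rw [ih, ← mul_assoc]; rfl

theorem psum_append (L L' : List (Letter ι)) (z : Z2 × ι) :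
    psum (L ++ L') (fun _ => Set.univ) z = psum L (fun _ => Set.univ) (wr L' (fun _ => Set.univ) z)
      + psum L' (fun _ => Set.univ) z := by
  induction L with
  | nil => simp [psum]
  | cons l L ih =>
    have h := wr_append L L'
    have h' : wr (L ++ L') (fun _ => Set.univ) z
      = wr L (fun _ => Set.univ) (wr L' (fun _ => Set.univ) z) := by rw [h]; rfl
    change W (wr (L ++ L') (fun _ => Set.univ) z).1
      (l.res Set.univ (wr (L ++ L') (fun _ => Set.univ) z)).1 +
      psum (L ++ L') (fun _ => Set.univ) z = _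
    rw [ih, h', ← add_assoc]; rfl

theorem psum_univ_support [Finite ι] {ρ : ℤ} (hρ : 0 ≤ ρ) (L : List (Letter ι))
    (hL : ∀ l ∈ L, l.Bdd ρ) (h1 : wr L (fun _ => Set.univ) = 1) :
    (Function.support (fun z => psum L (fun _ => Set.univ) z)).Finite := by
  refine (pts_finite (4 * (2 * ρ * L.length))).subset ?_
  intro z hz
  by_contra h
  apply hz
  change psum L (fun _ => Set.univ) z = 0
  rw [psum_far hρ L hL (2 * ρ * L.length) le_rfl _ z h, h1, Perm.one_apply, W_self]

theorem flux_append [Finite ι] {ρ : ℤ} (hρ : 0 ≤ ρ) (L L' : List (Letter ι))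
    (hL : ∀ l ∈ L, l.Bdd ρ) (hL' : ∀ l ∈ L', l.Bdd ρ)
    (h1 : wr L (fun _ => Set.univ) = 1) (h1' : wr L' (fun _ => Set.univ) = 1) :
    flux ρ (L ++ L') = flux ρ L + flux ρ L' := by
  have h : (fun z => psum (L ++ L') (fun _ => Set.univ) z)
      = fun z => psum L (fun _ => Set.univ) z + psum L' (fun _ => Set.univ) z := by
    funext z
    rw [psum_append, h1', Perm.one_apply]
  unfold flux
  rw [h, finsum_add_distrib (psum_univ_support hρ L hL h1) (psum_univ_support hρ L' hL' h1')]
  simp only [List.map_append, List.sum_append]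
  ring

/-- **Constancy of the flux**, finite restrictions. -/
theorem flux_eq_of_finite [Finite ι] {ρ : ℤ} (hρ : 0 ≤ ρ) (L : List (Letter ι))
    (hL : ∀ l ∈ L, l.Bdd ρ) (h1 : wr L (fun _ => Set.univ) = 1)
    (D : ℕ → Set Z2) (hD : ∀ i, (D i).Finite)
    (hs : ∀ i, disc (4 * ρ + 5 * (2 * ρ * L.length)) ⊆ D i) :
    ∑ᶠ z : Z2 × ι, W z.1 (wr L D z).1 = flux ρ L := by
  set C : ℤ := 2 * ρ * L.length with hC
  have hC0 : 0 ≤ C := by positivity
  obtain ⟨f1, f2⟩ := finsum_psum L hL D hD
    (fun i => (disc_mono (by omega)).trans (hs i))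
  have f3 := psum_univ_support hρ L hL h1
  have key : ∀ z : Z2 × ι, W z.1 (wr L D z).1 = psum L D z - psum L (fun _ => Set.univ) z := by
    intro z
    by_cases hz : z.1 ∈ disc (4 * C)
    · obtain ⟨e1, e2⟩ := wr_psum_loc hρ L hL C le_rfl D (fun _ => Set.univ) z (by
        intro i c hc
        refine ⟨fun _ => Set.mem_univ _, fun _ => hs i ?_⟩
        exact disc_mono (by omega) (near_disc hz (near_symm hc)))
      rw [e1, e2, h1, Perm.one_apply, W_self, sub_self]
    · rw [psum_far hρ L hL C le_rfl D z hz, psum_far hρ L hL C le_rfl _ z hz, h1,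
        Perm.one_apply, W_self, sub_zero]
  rw [finsum_congr key, finsum_sub_distrib f1 f3, f2, flux]

end Vale.Agent.P196.H366
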