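import Vale.Agent.P196.H366.Cons2
import Vale.Agent.P196.Cut.Geo

/-! P196, cutting: `StmtE` (conservation of the crossing numbers). -/

namespace Vale.Agent.P196.H366

open Equiv Vale.Agent.P196.Cut

variable {ι : Type*}

/-- The facts used by the conservation argument. -/
structure Qfg (M : ℤ) (v f : Perm (Z2 × ι)) : Prop where
  hM : 0 < M
  aV_v : ∀ z, aV M (v z).1 = aV M z.1
  v_H : ∀ z, sH M (v z).1 = true → hf M (v z).1.1 = hf M z.1.1
  v_V : ∀ z, sH M (v z).1 = false → hf M (v z).1.2 = hf M z.1.2
  v_quad : ∀ z, sV M (v z).1 ≠ sV M z.1 →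
    hf M (v z).1.1 = hf M z.1.1 ∧ hf M (v z).1.2 = hf M z.1.2
  fF : ∀ z, aF M (f z).1 = aF M z.1
  f_H : ∀ z, sH M (f z).1 = true → hf M (f z).1.2 = hf M z.1.2
  f_V : ∀ z, sH M (f z).1 = false → hf M (f z).1.1 = hf M z.1.1
  sH_f : ∀ z, sH M (f z).1 = sH M (v⁻¹ z).1

namespace Qfg

variable {M : ℤ} {v f : Perm (Z2 × ι)}

/-- crossing number of the inverse -/
theorem cr_v_inv (h : Qfg M v f) (p : Z2) (hx hy : Bool) :
    cr M v⁻¹ p hx hy = - cr M v p hx hy := by
  unfold cr
  rw [← finsum_comp_equiv v (f := fun z : Z2 × ι =>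
    if aV M z.1 = p ∧ hf M z.1.1 = hx ∧ hf M z.1.2 = hy then sV M (v⁻¹ z).1 - sV M z.1 else 0),
    ← finsum_neg_distrib]
  refine finsum_congr fun z => ?_
  have e0 : v⁻¹ (v z) = z := by simp
  rw [e0, h.aV_v]
  by_cases hs : sV M (v z).1 = sV M z.1
  · rw [hs]; simp
  · obtain ⟨q2, q3⟩ := h.v_quad z hs
    rw [q2, q3]
    split_ifs
    · ring
    · simp

/-- **(C3)** -/
theorem cr_f (h : Qfg M v f) (p : Z2) (hx hy : Bool) :
    cr M f p hx hy = - cr M v p hx hy := by
  rw [← h.cr_v_inv]
  unfold cr
  refine finsum_congr fun z => ?_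
  have : sV M (f z).1 = sV M (v⁻¹ z).1 := by unfold sV; rw [h.sH_f]
  rw [this]

/-- **(C1)** conservation on the horizontal sectors. -/
theorem cons_VH [Finite ι] (h : Qfg M v f) (p : Z2) (hx : Bool) :
    cr M v p hx false + cr M v p hx true = 0 := by
  have hM := h.hM
  unfold cr
  rw [← finsum_add_distrib (cr_support hM v p hx false) (cr_support hM v p hx true)]
  let F : Z2 × ι → ℤ := fun z =>
    if aV M z.1 = p ∧ hf M z.1.1 = hx then 1 - sV M z.1 else 0
  have hF : (Function.support F).Finite := supp_of_cell hM p (by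
    intro z hz
    change (if aV M z.1 = p ∧ hf M z.1.1 = hx then 1 - sV M z.1 else 0) = 0
    rw [if_neg (fun hh => hz hh.1)])
  have key := finsum_coboundary v F hF
  rw [← neg_eq_zero, ← finsum_neg_distrib]
  refine Eq.trans (finsum_congr fun z => ?_) key
  have haV := h.aV_v z
  simp only [F]
  rw [haV]
  by_cases hp : aV M z.1 = p
  · by_cases hs : sH M (v z).1 = true
    · have e1 := h.v_H z hs
      rw [e1]
      have e2 : sV M (v z).1 = 0 := by simp [sV, hs]
      rw [e2]
      by_cases hq : hf M z.1.1 = hx
      · cases hy : hf M z.1.2 <;> simp [hp, hq]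
      · simp [hq]
    · have e2 : sV M (v z).1 = 1 := by simp [sV, hs]
      rw [e2]
      by_cases hq : hf M z.1.1 = hx
      · cases hy : hf M z.1.2 <;> simp [hp, hq]
      · simp [hq]
  · simp [hp]

/-- **(C1)** conservation on the vertical sectors. -/
theorem cons_VV [Finite ι] (h : Qfg M v f) (p : Z2) (hy : Bool) :
    cr M v p false hy + cr M v p true hy = 0 := by
  have hM := h.hM
  unfold cr
  rw [← finsum_add_distrib (cr_support hM v p false hy) (cr_support hM v p true hy)]
  let F : Z2 × ι → ℤ := fun z =>
    if aV M z.1 = p ∧ hf M z.1.2 = hy then sV M z.1 else 0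
  have hF : (Function.support F).Finite := supp_of_cell hM p (by
    intro z hz
    change (if aV M z.1 = p ∧ hf M z.1.2 = hy then sV M z.1 else 0) = 0
    rw [if_neg (fun hh => hz hh.1)])
  have key := finsum_coboundary v F hF
  refine Eq.trans (finsum_congr fun z => ?_) key
  have haV := h.aV_v z
  simp only [F]
  rw [haV]
  by_cases hp : aV M z.1 = p
  · by_cases hs : sH M (v z).1 = true
    · have e2 : sV M (v z).1 = 0 := by simp [sV, hs]
      rw [e2]
      by_cases hq : hf M z.1.2 = hy
      · cases hx : hf M z.1.1 <;> simp [hp, hq]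
      · simp [hq]
    · have e1 := h.v_V z (by simpa using hs)
      rw [e1]
      have e2 : sV M (v z).1 = 1 := by simp [sV, hs]
      rw [e2]
      by_cases hq : hf M z.1.2 = hy
      · cases hx : hf M z.1.1 <;> simp [hp, hq]
      · simp [hq]
  · simp [hp]

/-- **(C2)** conservation on the horizontal triangles. -/
theorem cons_FH [Finite ι] (h : Qfg M v f) (P : Z2) (hy : Bool) :
    cr M f (P + (0, (if hy then 1 else 0))) false hy +
      cr M f (P + (1, (if hy then 1 else 0))) true hy = 0 := by
  have hM := h.hM
  have e1 := Cfg.cr_face hM f P false hy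
  have e2 := Cfg.cr_face hM f P true hy
  simp only [Bool.false_eq_true, if_false, if_true] at e1 e2
  rw [e1, e2]
  rw [← finsum_add_distrib (Cfg.cr_support_face hM f P false hy)
    (Cfg.cr_support_face hM f P true hy)]
  let F : Z2 × ι → ℤ := fun z =>
    if aF M z.1 = P ∧ hf M z.1.2 = hy then 1 - sV M z.1 else 0
  have hF : (Function.support F).Finite := Cfg.supp_of_face hM P (by
    intro z hz
    change (if aF M z.1 = P ∧ hf M z.1.2 = hy then 1 - sV M z.1 else 0) = 0
    rw [if_neg (fun hh => hz hh.1)])
  have key := finsum_coboundary f F hF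
  rw [← neg_eq_zero, ← finsum_neg_distrib]
  refine Eq.trans (finsum_congr fun z => ?_) key
  have haF := h.fF z
  simp only [F]
  rw [haF]
  by_cases hp : aF M z.1 = P
  · by_cases hs : sH M (f z).1 = true
    · have e1 := h.f_H z hs
      rw [e1]
      have e2 : sV M (f z).1 = 0 := by simp [sV, hs]
      rw [e2]
      by_cases hq : hf M z.1.2 = hy
      · cases hx : hf M z.1.1 <;> simp [hp, hq]
      · simp [hq]
    · have e2 : sV M (f z).1 = 1 := by simp [sV, hs]
      rw [e2]
      by_cases hq : hf M z.1.2 = hy
      · cases hx : hf M z.1.1 <;> simp [hp, hq]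
      · simp [hq]
  · simp [hp]

/-- **(C2)** conservation on the vertical triangles. -/
theorem cons_FV [Finite ι] (h : Qfg M v f) (P : Z2) (hx : Bool) :
    cr M f (P + ((if hx then 1 else 0), 0)) hx false +
      cr M f (P + ((if hx then 1 else 0), 1)) hx true = 0 := by
  have hM := h.hM
  have e1 := Cfg.cr_face hM f P hx false
  have e2 := Cfg.cr_face hM f P hx true
  simp only [Bool.false_eq_true, if_false, if_true] at e1 e2
  rw [e1, e2]
  rw [← finsum_add_distrib (Cfg.cr_support_face hM f P hx false)
    (Cfg.cr_support_face hM f P hx true)]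
  let F : Z2 × ι → ℤ := fun z =>
    if aF M z.1 = P ∧ hf M z.1.1 = hx then sV M z.1 else 0
  have hF : (Function.support F).Finite := Cfg.supp_of_face hM P (by
    intro z hz
    change (if aF M z.1 = P ∧ hf M z.1.1 = hx then sV M z.1 else 0) = 0
    rw [if_neg (fun hh => hz hh.1)])
  have key := finsum_coboundary f F hF
  refine Eq.trans (finsum_congr fun z => ?_) key
  have haF := h.fF z
  simp only [F]
  rw [haF]
  by_cases hp : aF M z.1 = P
  · by_cases hs : sH M (f z).1 = true
    · have e2 : sV M (f z).1 = 0 := by simp [sV, hs]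
      rw [e2]
      by_cases hq : hf M z.1.1 = hx
      · cases hy : hf M z.1.2 <;> simp [hp, hq]
      · simp [hq]
    · have e1 := h.f_V z (by simpa using hs)
      rw [e1]
      have e2 : sV M (f z).1 = 1 := by simp [sV, hs]
      rw [e2]
      by_cases hq : hf M z.1.1 = hx
      · cases hy : hf M z.1.2 <;> simp [hp, hq]
      · simp [hq]
  · simp [hp]

/-- **Conservation**: if the crossing number vanishes at one quadrant, then at all. -/
theorem cr_v_eq_zero [Finite ι] (h : Qfg M v f)
    (h0 : cr M v 0 false false = 0) (p : Z2) (hx hy : Bool) : cr M v p hx hy = 0 := by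
  have stepx : ∀ P : Z2, cr M v (P + (1, 0)) false false = cr M v P false false := by
    intro P
    have h1 := h.cons_FH P false
    have h2 := h.cons_VV (P + (1, 0)) false
    simp only [Bool.false_eq_true, if_false] at h1
    rw [h.cr_f, h.cr_f] at h1
    have e0 : P + ((0 : ℤ), (0 : ℤ)) = P := by simp
    rw [e0] at h1
    omega
  have stepy : ∀ P : Z2, cr M v (P + (0, 1)) false false = cr M v P false false := by
    intro P
    have h1 := h.cons_FV P false
    have h2 := h.cons_VH (P + (0, 1)) false
    simp only [Bool.false_eq_true, if_false] at h1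
    rw [h.cr_f, h.cr_f] at h1
    have e0 : P + ((0 : ℤ), (0 : ℤ)) = P := by simp
    rw [e0] at h1
    omega
  have hxx : ∀ k : ℤ, cr M v (k, 0) false false = 0 := by
    intro k
    induction k using Int.induction_on with
    | zero => exact h0
    | succ k ih =>
      have := stepx ((k : ℤ), 0)
      simp only [Prod.mk_add_mk, add_zero] at this
      rw [this, ih]
    | pred k ih =>
      have := stepx (-(k : ℤ) - 1, 0)
      simp only [Prod.mk_add_mk, add_zero, sub_add_cancel] at this
      rw [← this, ih]
  have hyy : ∀ k l : ℤ, cr M v (k, l) false false = 0 := by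
    intro k l
    induction l using Int.induction_on with
    | zero => exact hxx k
    | succ l ih =>
      have := stepy (k, (l : ℤ))
      simp only [Prod.mk_add_mk, add_zero] at this
      rw [this, ih]
    | pred l ih =>
      have := stepy (k, -(l : ℤ) - 1)
      simp only [Prod.mk_add_mk, add_zero, sub_add_cancel] at this
      rw [← this, ih]
  have h00 := hyy p.1 p.2
  have e : (p.1, p.2) = p := rfl
  rw [e] at h00
  have h1 := h.cons_VH p false
  have h2 := h.cons_VV p false
  have h3 := h.cons_VH p true
  cases hx <;> cases hy <;> omega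

end Qfg

end Vale.Agent.P196.H366
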