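import Vale.Agent.P196.H366.Flux
import Vale.Agent.P196.Cut.Defs

/-! P196, block S-FLUX: the crossing number at the north-east quadrant of the origin. -/

namespace Vale.Agent.P196.H366

open Equiv Vale.Agent.P196.Cut

variable {ι : Type*}

/-- side V is `1`, side H is `0` -/
def sV (M : ℤ) (u : Z2) : ℤ := if sH M u then 0 else 1

/-- the north-east quadrant cell of the origin -/
def isNE (M : ℤ) (u : Z2) : Prop := 0 ≤ u.1 ∧ u.1 < M ∧ 0 ≤ u.2 ∧ u.2 < M

instance (M : ℤ) (u : Z2) : Decidable (isNE M u) := by unfold isNE; infer_instance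

theorem dI_small {M x : ℤ} (h1 : -M ≤ x) (h2 : x < M) :
    dI M x = if 0 ≤ x then x else -1 - x := by
  unfold dI
  split_ifs with h3 h4 h4
  · exact Int.emod_eq_of_lt h4 (by omega)
  · have : (x + 2 * M) % (2 * M) = x + 2 * M := Int.emod_eq_of_lt (by omega) (by omega)
    rw [Int.add_emod_right] at this
    omega
  · rw [Int.emod_eq_of_lt h4 (by omega)] at h3
    omega
  · have : (x + 2 * M) % (2 * M) = x + 2 * M := Int.emod_eq_of_lt (by omega) (by omega)
    rw [Int.add_emod_right] at this
    omega

theorem wr_empty (L : List (Letter ι)) : wr L (fun _ => (∅ : Set Z2)) = 1 := by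
  induction L with
  | nil => rfl
  | cons l L ih =>
    change l.res ∅ * wr L (fun _ => (∅ : Set Z2)) = 1
    rw [ih, mul_one]
    ext1 p
    exact Letter.res_not_mem (Set.notMem_empty _)

/-- **Flux at the north-east quadrant of the origin.** -/
theorem flux_NE [Finite ι] {ρ : ℤ} (hρ : 0 ≤ ρ) (L : List (Letter ι))
    (hL : ∀ l ∈ L, l.Bdd ρ) (h1 : wr L (fun _ => Set.univ) = 1)
    (M C : ℤ) (hC : 2 * ρ * L.length ≤ C) (hM : 4 * ρ + 5 * C ≤ M)
    (D : ℕ → Set Z2) (hs : ∀ i, disc (4 * ρ + 5 * C) ⊆ D i)
    (hgap : ∀ i, ∀ c ∈ D i, c ∈ disc (M + C) → c ∈ disc (M - 3 * C - 1)) :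
    ∑ᶠ z : Z2 × ι, (if isNE M z.1 then sV M (wr L D z).1 - sV M z.1 else 0) = flux ρ L := by
  have hC0 : 0 ≤ 2 * ρ * L.length := by positivity
  let D' : ℕ → Set Z2 := fun i => D i ∩ disc M
  have hD' : ∀ i, (D' i).Finite := fun i => (disc_finite M).subset Set.inter_subset_right
  rw [← flux_eq_of_finite hρ L hL h1 D' hD' (fun i => Set.subset_inter
    ((disc_mono (by omega)).trans (hs i)) (disc_mono (by omega)))]
  refine finsum_congr fun z => ?_
  -- displacement
  have n' : near C (wr L D' z).1 z.1 := near_mono hC (wr_near L hL D' z)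
  -- far from the origin cell boundary nothing moves
  have hout : z.1 ∉ disc (M - 2 * C - 1) → wr L D' z = z := by
    intro hz
    have := (wr_psum_loc hρ L hL C hC D' (fun _ => ∅) z (by
      intro i c hc
      refine ⟨fun hcD => (hz ?_).elim, fun h => (Set.notMem_empty _ h).elim⟩
      have h2 := hgap i c hcD.1 (disc_mono (by omega) hcD.2)
      exact disc_mono (by omega) (near_disc h2 hc))).1
    rw [this, wr_empty]; rfl
  -- near the origin nothing moves
  have hin : z.1 ∈ disc (4 * C) → wr L D' z = z := by
    intro hz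
    have := (wr_psum_loc hρ L hL C hC D' (fun _ => Set.univ) z (by
      intro i c hc
      refine ⟨fun _ => Set.mem_univ _, fun _ => ?_⟩
      have h2 : c ∈ disc (4 * ρ + 5 * C) := disc_mono (by omega) (near_disc hz (near_symm hc))
      exact ⟨hs i h2, disc_mono (by omega) h2⟩)).1
    rw [this, h1]; rfl
  -- in the quadrant both products agree
  have hagree : isNE M z.1 → wr L D z = wr L D' z := by
    intro hz
    refine (wr_psum_loc hρ L hL C hC D D' z ?_).1
    intro i c hc
    refine ⟨fun hcD => ⟨hcD, ?_⟩, fun h => h.1⟩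
    have hzM : z.1 ∈ disc M := by
      simp only [isNE, disc, Set.mem_ofPred_eq, abs_le] at *
      omega
    exact disc_mono (by omega) (hgap i c hcD (near_disc hzM (near_symm hc)))
  by_cases hm : wr L D' z = z
  · rw [hm, W_self]
    split_ifs with hq
    · rw [hagree hq, hm, sub_self]
    · rfl
  · have hz1 : z.1 ∈ disc (M - 2 * C - 1) := by
      by_contra h; exact hm (hout h)
    have hz2 : z.1 ∉ disc (4 * C) := fun h => hm (hin h)
    have hz3 : (wr L D' z).1 ∈ disc (M - 1) := by
      exact disc_mono (by omega) (near_disc hz1 (near_symm n'))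
    split_ifs with hq
    · rw [hagree hq]
      generalize (wr L D' z).1 = w at *
      obtain ⟨x', y'⟩ := w
      simp only [near, disc, Set.mem_ofPred_eq, isNE, abs_le] at *
      unfold sV sH W bb
      simp only [decide_eq_true_eq]
      rw [dI_small (M := M) (x := z.1.1) (by omega) (by omega),
        dI_small (M := M) (x := z.1.2) (by omega) (by omega),
        dI_small (M := M) (x := x') (by omega) (by omega),
        dI_small (M := M) (x := y') (by omega) (by omega)]
      split_ifs <;> omega
    · generalize (wr L D' z).1 = w at *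
      obtain ⟨x', y'⟩ := w
      simp only [near, disc, Set.mem_ofPred_eq, isNE, abs_le] at *
      unfold W bb
      simp only
      split_ifs <;> omega

end Vale.Agent.P196.H366
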